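import Vale.Agent.P181.O2.Cnt

set_option autoImplicit false

/-!
# P181, O2: (W1), (W2), (W3) from (T) (helper696)
-/

open MvPolynomial

namespace Vale.Agent.P181.O2.H696

open Vale.Agent.P181.T4 (HW)
open Vale.Agent.P181.O2

instance finiteDimensional_PL (m : ℕ) (σ : Type) [Fintype σ] (l : σ → ℕ × ℕ) (mu : Fin m → ℕ) :
    FiniteDimensional ℂ (PL m σ l mu) :=
  Submodule.finiteDimensional_of_le (S₂ := HW m σ mu) fun _ h => h.1

lemma mem_PL {m : ℕ} {σ : Type} [Fintype σ] {l : σ → ℕ × ℕ} {mu : Fin m → ℕ}
    {f : MvPolynomial (Fin m × σ) ℂ} :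
    f ∈ PL m σ l mu ↔ f ∈ HW m σ mu ∧ (∀ v, coeff v f ≠ 0 → ∀ j, ∑ i, v (i, j) = (l j).2) ∧
      ∀ e : Equiv.Perm σ, (∀ j, l (e j) = l j) →
        rename (fun p : Fin m × σ => (p.1, e p.2)) f = f := Iff.rfl

/-- Finer labels. -/
lemma PL_le {m : ℕ} {σ : Type} [Fintype σ] {l l' : σ → ℕ × ℕ} (mu : Fin m → ℕ)
    (h2 : ∀ j, (l' j).2 = (l j).2)
    (h : ∀ e : Equiv.Perm σ, (∀ j, l' (e j) = l' j) → ∀ j, l (e j) = l j) :
    PL m σ l mu ≤ PL m σ l' mu := by
  intro f hf
  rw [mem_PL] at hf ⊢
  exact ⟨hf.1, fun v hv j => by rw [h2]; exact hf.2.1 v hv j, fun e he => hf.2.2 e (h e he)⟩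

lemma univ_map (W : Multiset (ℕ × ℕ)) :
    (Finset.univ.val.map fun j : Fin W.toList.length => W.toList.get j) = W := by
  rw [Fin.univ_val_map, List.ofFn_get, Multiset.coe_toList]

lemma cc_filter (hT : TransL) (m : ℕ) (mu : Fin m → ℕ) (W : Multiset (ℕ × ℕ)) :
    cc m mu W = cc m mu (W.filter fun p => 0 < p.2) := by
  have h := hT m (Fin W.toList.length) (fun j => W.toList.get j) mu
  rw [univ_map] at h
  exact h

lemma cc_of (hT : TransL) {m : ℕ} {σ : Type} [Fintype σ] (l : σ → ℕ × ℕ) (mu : Fin m → ℕ) :
    Module.finrank ℂ (PL m σ l mu) = cc m mu (Finset.univ.val.map l) := by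
  rw [hT m σ l mu, ← cc_filter hT]

/-- An injective change of labels. -/
lemma cc_map_le (hT : TransL) (m : ℕ) (mu : Fin m → ℕ) (W : Multiset (ℕ × ℕ))
    (g : ℕ × ℕ → ℕ × ℕ) (h2 : ∀ p ∈ W, (g p).2 = p.2)
    (hg : ∀ p ∈ W, ∀ p' ∈ W, g p = g p' → p = p') : cc m mu W ≤ cc m mu (W.map g) := by
  have h1 := cc_of hT (m := m) (fun j : Fin W.toList.length => g (W.toList.get j)) mu
  have h3 : (Finset.univ.val.map fun j : Fin W.toList.length => g (W.toList.get j)) =
      W.map g := by
    calc (Finset.univ.val.map fun j : Fin W.toList.length => g (W.toList.get j))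
        = (Finset.univ.val.map fun j : Fin W.toList.length => W.toList.get j).map g := by
          rw [Multiset.map_map]
          rfl
      _ = W.map g := by rw [univ_map]
  rw [h3] at h1
  rw [← h1]
  have hm : ∀ j : Fin W.toList.length, W.toList.get j ∈ W := fun j =>
    Multiset.mem_toList.1 (List.get_mem _ _)
  show Module.finrank ℂ (PL m (Fin W.toList.length) (fun j => W.toList.get j) mu) ≤ _
  refine Submodule.finrank_mono (PL_le mu (fun j => h2 _ (hm j)) ?_)
  intro e he j
  exact hg _ (hm _) _ (hm _) (he j)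

/-- **(W1)** -/
theorem plain (hT : TransL) : PlainC := by
  intro m mu
  have h : PlainW (cc m mu) := by
    intro y U
    rw [cc_filter hT m mu ((y, 0) ::ₘ U), cc_filter hT m mu U,
      Multiset.filter_cons_of_neg _ (by simp)]
  refine ⟨h, fun y U => ?_⟩
  -- the fresh colour changes: both are injective images of one another
  have key : ∀ (x x' : ℕ) (U : Multiset (ℕ × ℕ)), (∀ p ∈ U, p.1 < x) → (∀ p ∈ U, p.1 < x') →
      cc m mu ((x, 2) ::ₘ U) ≤ cc m mu ((x', 2) ::ₘ U) := by
    intro x x' U hx hx'
    have h1 := cc_map_le hT m mu ((x, 2) ::ₘ U)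
      (fun p => if p.1 = x then (x', p.2) else p) (by
        intro p _
        show (if p.1 = x then (x', p.2) else p).2 = p.2
        split_ifs <;> rfl) (by
        intro p hp p' hp' he
        rw [Multiset.mem_cons] at hp hp'
        rcases hp with rfl | hp <;> rcases hp' with rfl | hp'
        · rfl
        · exfalso
          have h3 := hx p' hp'
          have h4 := hx' p' hp'
          rw [if_pos rfl, if_neg (by omega)] at he
          have := congrArg Prod.fst he
          simp only at this
          omega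
        · exfalso
          have h3 := hx p hp
          have h4 := hx' p hp
          rw [if_pos rfl, if_neg (by omega)] at he
          have := congrArg Prod.fst he
          simp only at this
          omega
        · have h3 := hx p hp
          have h4 := hx p' hp'
          rw [if_neg (by omega), if_neg (by omega)] at he
          exact he)
    rw [Multiset.map_cons] at h1
    have h5 : (U.map fun p => if p.1 = x then (x', p.2) else p) = U := by
      conv_rhs => rw [← Multiset.map_id U]
      apply Multiset.map_congr rfl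
      intro p hp
      have := hx p hp
      rw [if_neg (by omega)]
      rfl
    rw [h5, if_pos rfl] at h1
    exact h1
  have hle : ∀ (U : Multiset (ℕ × ℕ)), ∀ p ∈ U, p.1 ≤ (U.map Prod.fst).sum := fun U p hp =>
    Multiset.single_le_sum (fun _ _ => Nat.zero_le _) _ (Multiset.mem_map_of_mem _ hp)
  have e1 : cc2 m mu ((y, 0) ::ₘ U) =
      cc m mu (((((y, 0) ::ₘ U).map Prod.fst).sum + 1, 2) ::ₘ U) := by
    show cc m mu (_ ::ₘ (y, 0) ::ₘ U) = _
    rw [Multiset.cons_swap]
    exact h y _
  rw [e1]
  have hs : (((y, 0) ::ₘ U).map Prod.fst).sum = y + (U.map Prod.fst).sum := by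
    rw [Multiset.map_cons, Multiset.sum_cons]
  rw [hs]
  apply le_antisymm
  · apply key
    · intro p hp
      have := hle U p hp
      omega
    · intro p hp
      have := hle U p hp
      omega
  · apply key
    · intro p hp
      have := hle U p hp
      omega
    · intro p hp
      have := hle U p hp
      omega

/-- **(W2)** -/
theorem fresh (hT : TransL) : FreshC := by
  intro m mu i i' u U hU
  have hl : ∀ x : ℕ × ℕ, (Finset.univ.val.map
      (Fin.cons x (fun j : Fin U.toList.length => U.toList.get j) :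
        Fin (U.toList.length + 1) → ℕ × ℕ)) = x ::ₘ U := by
    intro x
    rw [Fin.univ_val_map, List.ofFn_succ]
    simp only [Fin.cons_zero, Fin.cons_succ]
    rw [List.ofFn_get, ← Multiset.cons_coe, Multiset.coe_toList]
  have h1 := cc_of hT (m := m) (Fin.cons (i, u) (fun j : Fin U.toList.length => U.toList.get j) :
        Fin (U.toList.length + 1) → ℕ × ℕ) mu
  have h2 := cc_of hT (m := m) (Fin.cons (i', u) (fun j : Fin U.toList.length => U.toList.get j) :
        Fin (U.toList.length + 1) → ℕ × ℕ) mu
  rw [hl] at h1 h2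
  rw [← h1, ← h2]
  refine Submodule.finrank_mono (PL_le mu ?_ ?_)
  · intro j
    refine Fin.cases ?_ (fun k => ?_) j
    · rfl
    · rfl
  · intro e he
    have e0 : e 0 = 0 := by
      by_contra hne
      obtain ⟨j, hj⟩ := Fin.exists_succ_eq.2 hne
      have h3 := he 0
      rw [← hj, Fin.cons_succ, Fin.cons_zero] at h3
      apply hU
      rw [← h3]
      exact Multiset.mem_toList.1 (List.get_mem _ _)
    intro j
    refine Fin.cases ?_ (fun k => ?_) j
    · rw [e0]
    · have hne : e k.succ ≠ 0 := by
        intro h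
        have := e.injective (h.trans e0.symm)
        exact Fin.succ_ne_zero _ this
      obtain ⟨j', hj'⟩ := Fin.exists_succ_eq.2 hne
      have h3 := he k.succ
      rw [← hj', Fin.cons_succ, Fin.cons_succ] at h3
      rw [← hj', Fin.cons_succ, Fin.cons_succ]
      exact h3

/-- **(W3)** -/
theorem shift (hT : TransL) : ShiftC := by
  intro m mu U
  obtain ⟨S, hS⟩ : ∃ S, S = (U.map Prod.fst).sum := ⟨_, rfl⟩
  obtain ⟨S', hS'⟩ : ∃ S', S' = ((U.map fun p => (p.1 + 1, p.2)).map Prod.fst).sum := ⟨_, rfl⟩
  have hSS : S' = S + Multiset.card U := by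
    rw [hS', hS, Multiset.map_map]
    have : (U.map (Prod.fst ∘ fun p : ℕ × ℕ => (p.1 + 1, p.2))) = U.map fun p => p.1 + 1 := rfl
    rw [this, Multiset.sum_map_add, Multiset.map_const', Multiset.sum_replicate, smul_eq_mul,
      mul_one]
  have hle : ∀ p ∈ U, p.1 ≤ S := by
    intro p hp
    rw [hS]
    exact Multiset.single_le_sum (fun _ _ => Nat.zero_le _) _ (Multiset.mem_map_of_mem _ hp)
  have h1 := cc_map_le hT m mu ((S + 1, 2) ::ₘ U)
    (fun p => if p.1 = S + 1 then (S' + 1, p.2) else (p.1 + 1, p.2)) (by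
      intro p _
      show (if p.1 = S + 1 then (S' + 1, p.2) else (p.1 + 1, p.2)).2 = p.2
      split_ifs <;> rfl) (by
      intro p hp p' hp' he
      rw [Multiset.mem_cons] at hp hp'
      rcases hp with rfl | hp <;> rcases hp' with rfl | hp'
      · rfl
      · exfalso
        have h3 := hle p' hp'
        have h4 : 0 < Multiset.card U := Multiset.card_pos_iff_exists_mem.2 ⟨p', hp'⟩
        rw [if_pos rfl, if_neg (by omega)] at he
        have := congrArg Prod.fst he
        simp only at this
        omega
      · exfalso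
        have h3 := hle p hp
        have h4 : 0 < Multiset.card U := Multiset.card_pos_iff_exists_mem.2 ⟨p, hp⟩
        rw [if_pos rfl, if_neg (by omega)] at he
        have := congrArg Prod.fst he
        simp only at this
        omega
      · have h3 := hle p hp
        have h4 := hle p' hp'
        rw [if_neg (by omega), if_neg (by omega)] at he
        have h5 := congrArg Prod.fst he
        have h6 := congrArg Prod.snd he
        simp only at h5 h6
        exact Prod.ext (by omega) h6)
  rw [Multiset.map_cons, if_pos rfl] at h1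
  have h5 : (U.map fun p => if p.1 = S + 1 then (S' + 1, p.2) else (p.1 + 1, p.2)) =
      U.map fun p => (p.1 + 1, p.2) := by
    apply Multiset.map_congr rfl
    intro p hp
    have := hle p hp
    rw [if_neg (by omega)]
  rw [h5] at h1
  show cc m mu (((U.map Prod.fst).sum + 1, 2) ::ₘ U) ≤
    cc m mu ((((U.map fun p => (p.1 + 1, p.2)).map Prod.fst).sum + 1, 2) ::ₘ
      (U.map fun p => (p.1 + 1, p.2)))
  rw [← hS, ← hS']
  exact h1

end Vale.Agent.P181.O2.H696
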